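import Vale.Agent.P075.Main

open Vale.Agent.P075

/-- Q2 of P075: the dyadic triangular Hilbert form is bounded on `L³ × L³ × L³`, uniformly in
the finite scale set and the coefficients. -/
theorem Vale.Agent.Results.P075.DyadicBounded.result :
    ∃ C : ℝ, ∀ (S : Finset ℤ) (ε : ℤ → ℝ), (∀ k ∈ S, |ε k| ≤ 1) →
      ∀ F₀ F₁ F₂ : ℝ × ℝ → ℝ,
        Measurable F₀ → (∃ M, ∀ x, |F₀ x| ≤ M) → HasCompactSupport F₀ →
        Measurable F₁ → (∃ M, ∀ x, |F₁ x| ≤ M) → HasCompactSupport F₁ →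
        Measurable F₂ → (∃ M, ∀ x, |F₂ x| ≤ M) → HasCompactSupport F₂ →
        (∀ k : ℤ, Summable fun n : xorZero => localForm F₀ F₁ F₂ k n) ∧
        |dyadicForm S ε F₀ F₁ F₂| ≤ C * (norm3 F₀ * norm3 F₁ * norm3 F₂) := by
  refine ⟨9216, fun S ε hε F₀ F₁ F₂ m₀ b₀ c₀ m₁ b₁ c₁ m₂ b₂ c₂ => ⟨fun k => ?_,
    dyadicForm_bound S ε hε F₀ F₁ F₂ m₀ b₀ c₀ m₁ b₁ c₁ m₂ b₂ c₂⟩⟩
  obtain ⟨C, hC⟩ := b₀
  obtain ⟨R, hR⟩ := c₀.isCompact.isBounded.exists_norm_le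
  refine summable_scale ⟨m₀, ⟨C, le_trans (abs_nonneg _) (hC 0), hC⟩, R + 1, fun x hx => ?_⟩
    F₁ F₂ k
  by_contra h
  have h1 := hR x (subset_tsupport _ h)
  rw [Prod.norm_def, max_le_iff, Real.norm_eq_abs, Real.norm_eq_abs] at h1
  rcases hx with hx | hx
  · linarith [le_abs_self x.1]
  · linarith [le_abs_self x.2]
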